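import Vale.Agent.P241GG.Sus
import Vale.Agent.P241GP.P3
import Vale.Agent.P241Z.L0

/-!
# P241G: geometric fixed points of suspension spectra in the stable homotopy category
-/

open CategoryTheory MonoidalCategory Limits

noncomputable section

namespace Vale.Agent.P241GG

open P251.G P251.G.LC P251.St P251CX P241.St P241GA P241GA.GIn P241GR
open P241Z (IsRes fixIncl)
open P241L (fg)

universe u

variable {G : Type} [Group G] [Finite G] {M : Type u} [Category.{0} M] [MonoidalCategory M]
  [SymmetricCategory M] [MonoidalClosed M] [HasZeroMorphisms M] [HasColimitsOfSize.{0, 0} M]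
  [GIn G M] {o : M ⥤ Action OSp G} {V : Subgroup G} {T : SHCat} {S : Susp T}

/-- The geometric fixed points of the suspension spectrum of `X` are the suspension spectrum of the
fixed points of `X`, naturally. -/
theorem j2 (D : Dict o) (P : PhiF V) (I : P241L.IsSH (fg T S)) :
    ∃ θ : ∀ X : GSpace G, GFC G X →
      (S.obj (X.fix V) ≅ (LI I).obj (P.Φ.obj (o.obj ((TF M 0).obj (gl X))))),
      ∀ (X X' : GSpace G) (hX : GFC G X) (hX' : GFC G X') (f : gl X ⟶ gl X')
        (g : Map (X.fix V) (X'.fix V)), IsRes V (app f.hom) g.toFun →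
        S.map g ≫ (θ X' hX').hom = (θ X hX).hom ≫ (LI I).map (P.Φ.map (o.map ((TF M 0).map f))) := by
  have h := fun X : GSpace G => P241GP.p3 G V P X (o.obj ((TF M 0).obj (gl X)))
    (D.el (𝟙 ((TF M 0).obj (gl X)))) (D.eqv _) (D.free X)
  choose v h1 h2 using h
  refine ⟨fun X hX => @asIso _ _ _ _ (ioI I (v X)) (g3 I _ _ _ (P241Z.fc_fix hX V) (h1 X)),
    fun X X' hX hX' f g hg => ?_⟩
  refine I.io_nat _ _ _ _ (v X) (v X') g (P.Φ.map (o.map ((TF M 0).map f)))
    (P241Z.fc_fix hX V) (P241Z.fc_fix hX' V) fun x => (P.ok _ 0).1.injective ?_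
  refine (h2 X' _).trans (Eq.trans ?_ (P.nat (o.map ((TF M 0).map f)) 0 _).symm)
  rw [hg x, h2 X x]
  refine (D.pre f (𝟙 _) _).symm.trans (Eq.trans ?_ (D.post (𝟙 _) ((TF M 0).map f) _))
  rw [Category.comp_id, Category.id_comp]

end Vale.Agent.P241GG
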