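import Vale.Agent.P241GG.Main
import Vale.Agent.P241GF.C5
import Vale.Agent.P241GF.G1b
import Vale.Agent.P241GD.A2
import Vale.Agent.P241GQ.P2
import Vale.Agent.P241GW.D1
import Vale.Agent.P241GP.P1

/-!
# P241G: the geometric fixed points on the homotopy category
-/

open CategoryTheory MonoidalCategory Limits

noncomputable section

namespace Vale.Agent.P241GG

open P251.H P251.St P251CX P241.St P241GA P241GA.GIn P241GR P241GX
open P251.H.GS.StabInput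
open P241Y (PLocal)
open P241L (fg Rg)

universe v' u u'

variable {G : Type} [Group G] [Finite G] {M : Type u} [Category.{0} M] [MonoidalCategory M]
  [SymmetricCategory M] [MonoidalClosed M] [HasZeroMorphisms M] [HasColimitsOfSize.{0, 0} M]
  [GIn G M] {o : M ⥤ Action OSp G} {V : Subgroup G} {T : SHCat} {S : Susp T} {p : ℕ}

/-- The homotopy category of genuine `G`-spectra is the localization of the model. -/
theorem loc (D : Dict o) [o.Full] [o.Faithful] (hs : Function.Surjective o.obj) :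
    (o ⋙ (eqW G).Q).IsLocalization (piW (GG M)) := by
  have : o.IsEquivalence := { essSurj := ⟨fun Y => by
    obtain ⟨X, rfl⟩ := hs Y
    exact ⟨X, ⟨Iso.refl _⟩⟩⟩ }
  refine Functor.IsLocalization.of_equivalence_source (eqW G).Q (eqW G) (o ⋙ (eqW G).Q)
    (piW (GG M)) o.asEquivalence.symm ?_ (fun X Y f hf => ?_)
    ((Functor.associator _ _ _).symm ≪≫
      Functor.isoWhiskerRight o.asEquivalence.counitIso (eqW G).Q ≪≫ (eqW G).Q.leftUnitor)
  · intro X Y f hf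
    obtain ⟨X, rfl⟩ := hs X
    obtain ⟨Y, rfl⟩ := hs Y
    obtain ⟨f, rfl⟩ := o.map_surjective f
    exact ⟨X, Y, f, (P241GW.d1 M o D X Y f).1 hf,
      ⟨Arrow.isoOfNatIso o.asEquivalence.unitIso (Arrow.mk f)⟩⟩
  · exact (eqW G).Q_inverts _ ((P241GW.d1 M o D X Y f).2 hf)

section

variable {C : Type u'} [Category.{v'} C] (Q : M ⥤ C) [Q.IsLocalization (piW (GG M))]
  [Preadditive C] [HasCoproducts.{0} C]

theorem cpt_fin (c1 : C1 M) (n : ℕ) {K : GSpace G} (hK : GFC G K) :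
    P251.S.IsCpt (Q.obj ((TF M n).obj (gl K))) :=
  (P241GD.a2 (GG M) Q).cpt (c1.src n K hK) (finFactor_pw M n K)

theorem key (c1 : C1 M) (D : Dict o) (P : PhiF V) (I : P241L.IsSH (fg T S)) (hp : p.Prime)
    {K : T.C} (hK : PLocal p K) {X Y : M} (f : X ⟶ Y)
    (h : ∀ W, P251.S.IsCpt W → SIso p W (Q.map f)) : IsIso (K ◁ (LI I).map (P.Φ.map (o.map f))) := by
  obtain ⟨h1, h2⟩ := P241GQ.p2 M o D V P p X Y f fun a j =>
    P241GF.c5 c1 (P241GD.a1 (GG M) Q) (P241GD.a2 (GG M) Q) p X Y f a _ (.cell V j)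
      (h _ (cpt_fin Q c1 a (P241.H32.gfc_line (.cell V j))))
  exact P241GF.g1b T p hp K hK _ _ _ (g1a I p _ _ _ h1 h2)

end

theorem sIso_of_isIso {C : Type u'} [Category.{v'} C] [Preadditive C] (W : C) {X Y : C}
    (l : X ⟶ Y) [IsIso l] : SIso p W l :=
  ⟨fun y => ⟨1, y ≫ inv l, Nat.coprime_one_left p, by simp⟩, fun x hx =>
    ⟨1, Nat.coprime_one_left p, by rw [one_nsmul, ← cancel_mono l, hx, zero_comp]⟩⟩

theorem sIso_comp {C : Type u'} [Category.{v'} C] [Preadditive C] {W X Y Z : C} {l : X ⟶ Y}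
    (h : SIso p W l) (s : Y ⟶ Z) [IsIso s] : SIso p W (l ≫ s) := by
  refine ⟨fun y => ?_, fun x hx => h.2 x ?_⟩
  · obtain ⟨m, x, hm, e⟩ := h.1 (y ≫ inv s)
    exact ⟨m, x, hm, by rw [← Category.assoc, e]; simp⟩
  · rw [← cancel_mono s, Category.assoc, hx, zero_comp]

variable [Preadditive (Ho G)]

/-- The functor `K ⊗ Φ^V` on the homotopy category inverts the `p`-local equivalences. -/
theorem psi [HasCoproducts.{0} (Ho G)] (c1 : C1 M) (D : Dict o) [o.Full] [o.Faithful]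
    (hs : Function.Surjective o.obj) (P : PhiF V) (I : P241L.IsSH (fg T S)) (hp : p.Prime)
    {K : T.C} (hK : PLocal p K) : ∃ Ψ : Ho G ⥤ T.C,
      (eqW G).Q ⋙ Ψ = P.Φ ⋙ LI I ⋙ tensorLeft K ∧
      ∀ (B B' : Ho G) (l : B ⟶ B'), (∀ W, P251.S.IsCpt W → SIso p W l) → IsIso (Ψ.map l) := by
  have := loc D hs
  have h1 : (eqW G).IsInvertedBy (P.Φ ⋙ LI I ⋙ tensorLeft K) := fun X Y f hf => by
    obtain ⟨X, rfl⟩ := hs X
    obtain ⟨Y, rfl⟩ := hs Y
    obtain ⟨f, rfl⟩ := o.map_surjective f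
    have : IsIso ((o ⋙ (eqW G).Q).map f) := (eqW G).Q_inverts _ hf
    exact key (o ⋙ (eqW G).Q) c1 D P I hp hK f fun W _ => sIso_of_isIso W _
  have h2 := Localization.Construction.fac _ h1
  refine ⟨_, h2, fun B B' l hl => ?_⟩
  generalize Localization.Construction.lift _ h1 = Ψ at h2 ⊢
  have h3 : ∀ {X Y : M} (f : X ⟶ Y), (∀ W, P251.S.IsCpt W → SIso p W ((o ⋙ (eqW G).Q).map f)) →
      IsIso (Ψ.map ((o ⋙ (eqW G).Q).map f)) := fun f hf => by
    have h4 : IsIso ((P.Φ ⋙ LI I ⋙ tensorLeft K).map (o.map f)) :=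
      key (o ⋙ (eqW G).Q) c1 D P I hp hK f hf
    rw [← h2] at h4
    exact h4
  obtain ⟨X, hX⟩ := hs B.as.obj
  obtain ⟨Y, hY⟩ := hs B'.as.obj
  obtain rfl : (o ⋙ (eqW G).Q).obj X = B := congrArg (eqW G).Q.obj hX
  obtain rfl : (o ⋙ (eqW G).Q).obj Y = B' := congrArg (eqW G).Q.obj hY
  obtain ⟨Z, f, s, h5, e⟩ := (P241GD.a1 (GG M) (o ⋙ (eqW G).Q)).frac X Y l
  have h6 : IsIso ((o ⋙ (eqW G).Q).map s) := Localization.inverts _ (piW (GG M)) s h5
  have h7 := h3 f fun W hW => e ▸ sIso_comp (hl W hW) _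
  rw [← e, Ψ.map_comp] at h7
  exact IsIso.of_isIso_comp_right _ (Ψ.map ((o ⋙ (eqW G).Q).map s))

theorem acy_iff (P : PhiF V) (I : P241L.IsSH (fg T S)) (K : ℕ → Rg (fg T S)) (i : ℕ)
    (Ψ : Ho G ⥤ T.C) (h : (eqW G).Q ⋙ Ψ = P.Φ ⋙ LI I ⋙ tensorLeft (C := T.C) (K i).ob)
    (A : Pl G p) : Acy V p I K A i ↔ IsZero (Ψ.obj A.obj) := by
  have h1 : Ψ.obj A.obj = (tensorLeft (C := T.C) (K i).ob).obj
      ((LI I).obj (P.Φ.obj A.obj.as.obj)) := Functor.congr_obj h A.obj.as.obj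
  have h2 : IsPhi V A.obj.as.obj (P.Φ.obj A.obj.as.obj) := ⟨_, P.ok _⟩
  rw [h1]
  refine ⟨fun a => (IsZero.iff_id_eq_zero _).2 (a _ h2), fun a Y hY => ?_⟩
  obtain ⟨e⟩ := (P241GP.p1 G V).2 _ _ _ hY h2
  exact (IsZero.iff_id_eq_zero _).1
    (a.of_iso ((LI I ⋙ tensorLeft (C := T.C) (K i).ob).mapIso e))

end Vale.Agent.P241GG
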