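import Vale.Agent.P241CT.GenL
import Vale.Agent.P251CR.Tr
import Vale.Agent.P251.H.PhiM

/-!
# P241G: morphisms out of cells in the localization of a reflective model
-/

open CategoryTheory MonoidalCategory Limits
open Functor.LaxMonoidal Functor.OplaxMonoidal Functor.Monoidal

noncomputable section

namespace Vale.Agent.P241GG

open P251 P251.G P251.G.LC P251.H P251.H.StabInput P251CM P251CR P251CR.RM
open P251.St (Space toLC toHom fc_toLC)
open P251CI (pwM)

section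

variable {M : Type 1} [Category.{0} M] [MonoidalCategory M] [SymmetricCategory M]
  [MonoidalClosed M] [HasZeroMorphisms M] [HasColimitsOfSize.{0, 0} M] [StabInput M]
  {T : Type 1} [Category.{0} T] (Q : M ⥤ T)

variable (M) in
/-- The powers `U^k ⊗ A`. -/
@[reducible] def relG : CoPtRel (HM.proj M) (stab M).coPt where
  pwC k A := pwM k A
  c _ _ := Iso.refl _

theorem tk_eq (k : ℕ) (A : M) : P251CI.tkM k A = tkM k A := by
  induction k with
  | zero => rfl
  | succ k ih => exact congrArg (_ ≫ ·) ih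

variable [Q.IsLocalization (WW M)]

theorem htpy {X Y : M} {f g : X ⟶ Y} (h : MHtpy f g) : Q.map f = Q.map g := by
  obtain ⟨H, h0, h1⟩ := h
  have hp : IsIso (Q.map (pr X)) := Localization.inverts Q (WW M) _
    (piW_of_inverse (pr X) (inc 0 X) (mHtpy_pr_inc X) (MHtpy.of_eq (inc_pr 0 X)))
  have e2 : Q.map (inc 0 X) = Q.map (inc 1 X) := by
    rw [← cancel_mono (Q.map (pr X)), ← Q.map_comp, ← Q.map_comp, inc_pr, inc_pr]
  rw [← h0, ← h1, Q.map_comp, Q.map_comp, e2]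

theorem isIso_tk (k : ℕ) (A : M) : IsIso (Q.map (tkM k A)) :=
  Localization.inverts Q (WW M) _ (W_tkM (W := WW M) (fun X => piW_lam X) k A)

theorem compat : (relG M).Compat Q where
  map_eq f g h := htpy Q ((HM.proj_map_eq_iff _ _).mp h)
  isIso k A := by
    have h : Q.map ((relG M).tkC k A) = Q.map (tkM k A) := by
      apply htpy Q
      refine (HM.proj_map_eq_iff _ _).mp ?_
      refine ((relG M).q_tkC k A).trans ?_
      refine (Category.id_comp (((stab M).coPt).tk k ((HM.proj M).obj A))).trans ?_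
      exact (proj_tkM k A).symm
    rw [h]
    exact isIso_tk Q k A

theorem phi_bij {A : M} (hA : GG M A) (X : M) :
    Function.Bijective ((relG M).phi (compat Q) A X) :=
  (relG M).phi_bijective (compat Q) (WW M) A (fun _ _ f hf => (piW_iff f).mp hf A hA) X

theorem rep {A : M} (hA : GG M A) (X : M) (φ : Q.obj A ⟶ Q.obj X) :
    ∃ (k : ℕ) (x : pwM k A ⟶ X), Q.map (tkM k A) ≫ φ = Q.map x := by
  obtain ⟨z, rfl⟩ := (phi_bij Q hA X).2 φ
  obtain ⟨k, x, rfl⟩ := CoPt.cl_surj z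
  obtain ⟨x, rfl⟩ := HM.proj_map_surjective x
  refine ⟨k, x, Eq.trans ?_ ((relG M).phi_cl (compat Q) k x (tkM k A) ((proj_tkM k A).trans
    (Category.id_comp ((stab M).coPt.tk k ((HM.proj M).obj A))).symm))⟩
  exact congrArg (fun z => Q.map (tkM k A) ≫ (relG M).phi (compat Q) A X ((stab M).coPt.cl k z))
    (Category.id_comp ((HM.proj M).map x)).symm

theorem inj {A : M} (hA : GG M A) {X : M} {x y : A ⟶ X} (h : Q.map x = Q.map y) :
    ∃ k : ℕ, MHtpy (tkM k A ≫ x) (tkM k A ≫ y) := by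
  have h1 := (phi_bij Q hA X).1 (((relG M).phi_cl_zero (compat Q) x).trans
    (h.trans ((relG M).phi_cl_zero (compat Q) y).symm))
  obtain ⟨m, hm, e⟩ := (CoPt.cl_eq_iff' _ _).1 h1
  refine ⟨m, (HM.proj_map_eq_iff _ _).1 ?_⟩
  rw [Functor.map_comp, Functor.map_comp, proj_tkM]
  exact e

end

variable {C : Type 1} [Category.{0} C] [MonoidalCategory C] [SymmetricCategory C]
  [MonoidalClosed C] [HasZeroMorphisms C] [HasColimitsOfSize.{0, 0} C] [StabInput C]
  {D : Type 1} [Category.{0} D] (R : Rfl C D)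

section

variable {T : Type 1} [Category.{0} T] (Q : RM R ⥤ T) {E E' : C} {X Y : RM R}

/-- the morphism of the localization given by a morphism to an object of the model -/
def kk (x : E ⟶ (q R).obj X) : Q.obj ((r R).obj E) ⟶ Q.obj X := Q.map ((r R).map x ≫ co R X)

theorem kk_pre (a : E' ⟶ E) (x : E ⟶ (q R).obj X) :
    kk R Q (a ≫ x) = Q.map ((r R).map a) ≫ kk R Q x := by
  rw [kk, kk, ← Q.map_comp, (r R).map_comp, Category.assoc]

theorem kk_post (x : E ⟶ (q R).obj X) (f : X ⟶ Y) :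
    kk R Q (x ≫ (q R).map f) = kk R Q x ≫ Q.map f := by
  rw [kk, kk, ← Q.map_comp, (r R).map_comp, Category.assoc, co_nat, Category.assoc]

theorem kk_ad (f : (r R).obj E ⟶ X) : kk R Q (ad R f) = Q.map f := by
  rw [kk, map_ad_counit]

theorem gg_r (h : GG C E) : GG (RM R) ((r R).obj E) := by
  obtain ⟨n, K, hK, ⟨e⟩⟩ := h
  exact ⟨n, K, hK, ⟨(r R).mapIso e ≪≫ (RM.cellIso R n K).symm⟩⟩

variable [Q.IsLocalization (WW (RM R))]

theorem kk_htpy {x x' : E ⟶ (q R).obj X} (h : MHtpy x x') : kk R Q x = kk R Q x' :=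
  htpy Q ((mHtpy_map R h).comp_right _)

theorem isIso_tkr (k : ℕ) (E : C) : IsIso (Q.map ((r R).map (tkM k E))) := by
  obtain ⟨e, he⟩ := exists_pwIso R E k
  rw [tk_eq, tk_eq] at he
  have h1 := isIso_tk Q k ((r R).obj E)
  have h2 : IsIso (Q.map e.hom ≫ Q.map ((r R).map (tkM k E))) := by
    rw [← Q.map_comp]
    exact he ▸ h1
  exact IsIso.of_isIso_comp_left (Q.map e.hom) _

theorem kk_rep (h : GG C E) (φ : Q.obj ((r R).obj E) ⟶ Q.obj X) :
    ∃ (k : ℕ) (x : pwM k E ⟶ (q R).obj X), Q.map ((r R).map (tkM k E)) ≫ φ = kk R Q x := by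
  obtain ⟨k, x, hx⟩ := rep Q (gg_r R h) X φ
  obtain ⟨e, he⟩ := exists_pwIso R E k
  rw [tk_eq, tk_eq] at he
  refine ⟨k, ad R (e.inv ≫ x), ?_⟩
  rw [kk_ad, Q.map_comp, ← hx, ← Category.assoc, ← Q.map_comp, ← he, Iso.inv_hom_id_assoc]

theorem kk_inj (h : GG C E) {x x' : E ⟶ (q R).obj X} (e : kk R Q x = kk R Q x') :
    ∃ k : ℕ, MHtpy (tkM k E ≫ x) (tkM k E ≫ x') := by
  obtain ⟨x, rfl⟩ := (ad_bijective R E X).2 x
  obtain ⟨x', rfl⟩ := (ad_bijective R E X).2 x'
  rw [kk_ad, kk_ad] at e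
  obtain ⟨k, hk⟩ := inj Q (gg_r R h) e
  obtain ⟨a, ha⟩ := exists_pwIso R E k
  rw [tk_eq, tk_eq] at ha
  refine ⟨k, ?_⟩
  rw [← ad_map_comp, ← ad_map_comp, ← mHtpy_iff]
  have h1 := hk.comp_left a.inv
  rw [← ha, Category.assoc, Category.assoc, Iso.inv_hom_id_assoc, Iso.inv_hom_id_assoc] at h1
  exact h1

end

theorem ten {T : P241L.SM} (G : P241CT.GenL (RM R) T) (A : C) {K : Space} (hK : St.FC K) :
    ∃ θ : G.L.obj ((r R).obj A) ⊗ T.sus K ≅ G.L.obj ((r R).obj (A ⊗ (J C).obj (toLC K))),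
      ∀ a : St.Map K K, θ.hom ≫ G.L.map ((r R).map (A ◁ (J C).map (toHom a))) =
        G.L.obj ((r R).obj A) ◁ T.sm a ≫ θ.hom := by
  have h1 := G.io_iso hK
  have h2 := G.mu_iso ((r R).obj A) _ ((flatInput (WW (RM R))).flat_J (fc_toLC hK))
  refine ⟨whiskerLeftIso _ (asIso (G.io K)) ≪≫ asIso (G.mu _ _) ≪≫
    G.L.mapIso (μIso (r R) A ((J C).obj (toLC K))), fun a => ?_⟩
  have h3 := G.mu_nat (𝟙 ((r R).obj A)) ((J (RM R)).map (toHom a))
  have h4 := G.io_nat a hK hK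
  rw [G.L.map_id, id_tensorHom, id_tensorHom] at h3
  have h5 : μ (r R) A ((J C).obj (toLC K)) ≫ (r R).map (A ◁ (J C).map (toHom a)) =
      (r R).obj A ◁ (J (RM R)).map (toHom a) ≫ μ (r R) A ((J C).obj (toLC K)) :=
    (μ_natural_right (r R) A ((J C).map (toHom a))).symm
  change (_ ◁ G.io K ≫ G.mu _ _ ≫ G.L.map (μ (r R) A ((J C).obj (toLC K)))) ≫ _ =
    _ ≫ _ ◁ G.io K ≫ G.mu _ _ ≫ G.L.map (μ (r R) A ((J C).obj (toLC K)))
  rw [← MonoidalCategory.whiskerLeft_comp_assoc, h4, MonoidalCategory.whiskerLeft_comp_assoc,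
    ← reassoc_of% h3, ← G.L.map_comp, ← h5, G.L.map_comp, Category.assoc, Category.assoc]

end Vale.Agent.P241GG
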