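import Vale.Agent.P241GR.G
import Vale.Agent.P251.M.SpaceConn
import Vale.Agent.P251CX.Dic

/-!
# P241G, row G3 and the facts about suspension spectra of spheres
-/

open CategoryTheory MonoidalCategory Limits OnePoint

noncomputable section

namespace Vale.Agent.P241GG

open P251 P251.St P251CX P241GR P251.G P251.G.LC P251.I
open P241L (fg)

variable {T : SHCat} (S : Susp T)

theorem mor_ext {X Y : OSp} {f g : Mor X Y} (h : ∀ n x, f.app n x = g.app n x) : f = g := by
  cases f
  cases g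
  congr
  funext n x
  exact h n x

theorem map_Dg {m j : ℕ} {D : Map (Rn j) (Rn j)} (h : Dg m D) :
    S.map D = m • 𝟙 (S.obj (Rn j)) := by
  obtain ⟨i, d, e, hd, he⟩ := h
  let F := S.toSpaceFunctor.S
  let a : SphF i ⊗ RRF ≅ SphF j := P251.M.fcIso (ofHomeo (X := Sph i ⊗ RR) (Y := Sph j) e)
  let d' : RRF ⟶ RRF := FCat.hom (toHom d)
  let D' : SphF j ⟶ SphF j := FCat.hom (toHom D)
  have h1 : a.hom ≫ D' = SphF i ◁ d' ≫ a.hom := by
    refine ObjectProperty.hom_ext _ (app_ext fun z => ?_)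
    induction z using OnePoint.rec with
    | infty => exact (app_infty _).trans (app_infty _).symm
    | coe z =>
      refine (he z.1 z.2).trans ?_
      change _ = app (ofHomeo (X := Sph i ⊗ RR) (Y := Sph j) e).hom
        (app (Sph i ◁ toHom d) (LC.smash (z.1 : OnePoint (Fin i → ℝ)) (z.2 : OnePoint ℝ)))
      rw [app_whiskerLeft_smash]
      change _ = app (ofHomeo (X := Sph i ⊗ RR) (Y := Sph j) e).hom
        (LC.smash (z.1 : OnePoint (Fin i → ℝ)) (d.toFun (.some z.2)))
      induction d.toFun (.some z.2) using OnePoint.rec with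
      | infty => rfl
      | coe s => rfl
  have h2 : F.map d' = m • 𝟙 _ := (P241Z.map_isDeg S hd).trans (natCast_zsmul _ m)
  have h3 : F.map (SphF i ◁ d') = m • 𝟙 _ := by
    rw [Functor.Monoidal.map_whiskerLeft, h2, ← (tensorLeft (F.obj (SphF i))).map_nsmul.symm.trans
      (Eq.refl (F.obj (SphF i) ◁ (m • 𝟙 (F.obj RRF))))]
    simp
  have h4 : F.map D' = m • 𝟙 _ := by
    rw [← cancel_epi (F.map a.hom), ← F.map_comp, h1, F.map_comp, h3]
    simp
  exact h4

theorem map_const (A B : Space) (hA : St.FC A) (hB : St.FC B) :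
    S.map (⟨fun _ => ∞, continuous_const, rfl⟩ : Map A B) = 0 :=
  S.toSpaceFunctor.map_zero (X := FCat.mk (fc_toLC hA)) (Y := FCat.mk (fc_toLC hB))
    (FCat.hom 0) rfl

/-- tensoring with a sphere is a shift -/
def tenRn (A : T.C) (j : ℕ) : A ⊗ S.obj (Rn j) ≅ A⟦(j : ℤ)⟧ :=
  whiskerLeftIso A (P251.M.sphIso S.toSpaceFunctor j) ≪≫ P251.M.tensorUnitShiftIso A j

variable {S} (I : P241L.IsSH (fg T S))

/-- **Row G3.** -/
theorem g3 : G3 I := by
  intro A X u hA hu
  obtain ⟨X0, u0, h0, -, hi⟩ := I.io_iso A hA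
  obtain ⟨h, hh, -⟩ := h0 X u
  obtain ⟨g, hg, -⟩ := hu X0 u0
  have e1 : cmp h g = idm X0 := (h0 X0 u0).unique
    (fun x => (congrArg (g.app 0) (hh x)).trans (hg x)) fun _ => rfl
  have e2 : cmp g h = idm X := (hu X u).unique
    (fun x => (congrArg (h.app 0) (hg x)).trans (hh x)) fun _ => rfl
  have h1 : IsIso (C := OSp) (X := X0) (Y := X) h := ⟨g, e1, e2⟩
  have h2 : IsIso ((LI I).map (X := X0) (Y := X) h) := inferInstance
  have h3 : IsIso (ioI I u0) := hi
  have h4 : S.map (⟨id, continuous_id, rfl⟩ : Map A A) ≫ ioI I u =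
      ioI I u0 ≫ (LI I).map (X := X0) (Y := X) h :=
    I.io_nat A A X0 X u0 u ⟨id, continuous_id, rfl⟩ h hA hA fun x => (hh x).symm
  rw [S.map_id _ hA rfl] at h4
  rw [← Category.id_comp (ioI I u), h4]
  infer_instance

end Vale.Agent.P241GG
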