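import Vale.Agent.P241GG.Rp
import Vale.Agent.P241GG.Sus
import Vale.Agent.P241CT.Ex

/-!
# P241G, row G1a
-/

open CategoryTheory MonoidalCategory Limits OnePoint

noncomputable section

namespace Vale.Agent.P241GG

open P251 P251.H P251.H.StabInput P251CM P251CA P251CA.CF P251CP P241GR
open P251.St (SHCat Susp Rn Map toHom)
open P251CR (RM)
open P251CV (R)
open P251CX (OSp Pm PiRel po pn qe)
open P241L (fg)
open Sp0 (euc)

variable {T : SHCat} {S : Susp T} (I : P241L.IsSH (fg T S))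

/-- the comparison with the model -/
abbrev NN : OSp ⥤ RM R := P251CX.F ⋙ P251CZ.idE R

/-- the comparison data -/
def gd : P241CT.GenL (RM R) (fg T S) := (P241CT.midL (P251CZ.br2 R P251CE.qd) I).genL

/-- the localization functor on the model -/
def QQ : RM R ⥤ T.C := (gd I).L

theorem qq_loc : (QQ I).IsLocalization (WW (RM R)) := (gd I).loc

/-- the comparison of the two localization functors -/
def th : NN ⋙ QQ I ≅ LI I :=
  (Functor.associator NN NN.inv (LI I)).symm ≪≫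
    Functor.isoWhiskerRight NN.asEquivalence.unitIso.symm (LI I) ≪≫ (LI I).leftUnitor

theorem ten' (A : CF) (j : ℕ) : ∃ θ : (QQ I).obj ((RM.r R).obj A) ⊗ S.obj (Rn j) ≅
    (QQ I).obj ((RM.r R).obj (A ⊗ jC.obj (euc j).s)), ∀ a : Map (Rn j) (Rn j),
      θ.hom ≫ (QQ I).map ((RM.r R).map (A ◁ jC.map (X := (euc j).s) (Y := (euc j).s) (toHom a))) =
        (QQ I).obj ((RM.r R).obj A) ◁ S.map a ≫ θ.hom :=
  ten R (gd I) A (St.FC.sph j)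

theorem io_zero : Nonempty (S.obj (Rn 0) ≅ (QQ I).obj ((RM.r R).obj (jC.obj (euc 0).s))) :=
  ⟨@asIso (fg T S).Sp _ _ _ ((gd I).io (Rn 0)) ((gd I).io_iso (St.FC.sph 0))⟩

variable {I}

theorem smul_of {A B Z : T.C} (θ : A ⊗ B ≅ Z) {f : Z ⟶ Z} {g : B ⟶ B} {m : ℕ}
    (h : θ.hom ≫ f = A ◁ g ≫ θ.hom) (hg : g = m • 𝟙 B) : f = m • 𝟙 Z := by
  rw [← cancel_epi θ.hom, h, hg, ← (tensorLeft A).map_nsmul.symm.trans
    (Eq.refl (A ◁ (m • 𝟙 B)))]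
  simp

theorem Rp.mul' {Q : RM R ⥤ T.C} {X : RM R} {j n m : ℕ} {W : T.C} {v : El ((RM.q R).obj X) j n}
    {φ : W ⟶ Q.obj X} (h : Rp Q v φ) {E : CF} {u : El E j n} (h1 : Cr u) {w : E ⟶ E}
    {d : (euc j).s ⟶ (euc j).s} (h2 : u ≫ ap w _ = lc d ≫ u)
    (h4 : Q.map ((RM.r R).map w) = m • 𝟙 _) : Rp Q (lc d ≫ v) (m • φ) := by
  obtain ⟨x, rfl⟩ := (h1 _).2 v
  obtain ⟨e, rfl⟩ := h.uniq (rp_of h1 x)
  have h3 := (rp_of (Q := Q) h1 (w ≫ x)).iso e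
  rw [ap_comp, h2, kk_pre, h4, Preadditive.nsmul_comp, Category.id_comp,
    Preadditive.comp_nsmul] at h3
  exact h3

theorem Rp.mul {X : RM R} {j n m : ℕ} {W : T.C} {v : El ((RM.q R).obj X) j n}
    {φ : W ⟶ (QQ I).obj X} (h : Rp (QQ I) v φ) {D : Map (Rn j) (Rn j)}
    (hD : S.map D = m • 𝟙 _) :
    Rp (QQ I) (lc (K := (euc j).s) (K' := (euc j).s) (toHom D) ≫ v) (m • φ) := by
  obtain ⟨u, h1, h2⟩ := cr_cell j n
  obtain ⟨θ, hθ⟩ := ten' I (CF.rep (euc n)) j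
  exact h.mul' h1 (h2 (toHom D)) (smul_of θ (hθ D) hD)

variable (I) in
theorem sph (k : ℤ) : ∃ (j n : ℕ) (E : CF) (u : El E j n), Cr u ∧
    Nonempty ((𝟙_ T.C)⟦k⟧ ≅ (QQ I).obj ((RM.r R).obj E)) := by
  have := qq_loc I
  have h1 : ∀ n, ∃ (E : CF) (u : El E n n), Cr u ∧
      Nonempty (𝟙_ T.C ≅ (QQ I).obj ((RM.r R).obj E)) := fun n => by
    induction n with
    | zero =>
      obtain ⟨u, hu⟩ := cr_zero
      obtain ⟨a⟩ := io_zero I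
      exact ⟨_, u, hu, ⟨(shiftFunctorZero' T.C ((0 : ℕ) : ℤ) (by simp)).symm.app _ ≪≫
        (tenRn S (𝟙_ T.C) 0).symm ≪≫ λ_ _ ≪≫ a⟩⟩
    | succ n ih =>
      obtain ⟨E, u, hu, ⟨a⟩⟩ := ih
      obtain ⟨v, hv, -⟩ := cr_up hu 1
      have := isIso_tkr R (QQ I) 1 E
      exact ⟨_, v, hv, ⟨a ≪≫ (asIso ((QQ I).map ((RM.r R).map (tkM 1 E)))).symm⟩⟩
  obtain ⟨E, u, hu, ⟨a⟩⟩ := h1 (-k).toNat
  obtain ⟨u1, hu1, -⟩ := cr_cell (-k).toNat (-k).toNat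
  obtain ⟨u2, hu2, -⟩ := cr_cell k.toNat (-k).toNat
  obtain ⟨b, -⟩ := cr_iso hu hu1
  obtain ⟨θ1, -⟩ := ten' I (CF.rep (euc (-k).toNat)) (-k).toNat
  obtain ⟨θ2, -⟩ := ten' I (CF.rep (euc (-k).toNat)) k.toNat
  exact ⟨_, _, _, u2, hu2, ⟨(shiftFunctor T.C k).mapIso (a ≪≫ (QQ I).mapIso ((RM.r R).mapIso b) ≪≫
    θ1.symm ≪≫ tenRn S _ _) ≪≫
    (shiftFunctorAdd' T.C (((-k).toNat : ℕ) : ℤ) k ((k.toNat : ℕ) : ℤ) (by omega)).symm.app _ ≪≫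
    (tenRn S _ _).symm ≪≫ θ2⟩⟩

variable (I) in
/-- the morphism `φ` represents the based map `v` -/
def Rq {Y : OSp} {j n : ℕ} (v : Pm (Rn j) Y n) {W : T.C} (φ : W ⟶ (LI I).obj Y) : Prop :=
  Rp (QQ I) ((vw (NN.obj Y)).el (po v)) (φ ≫ (th I).inv.app Y)

variable {Y Y' : OSp} {j n j' n' m : ℕ} {W W' : T.C} {v : Pm (Rn j) Y n} {φ : W ⟶ (LI I).obj Y}

theorem rq_ex (v : Pm (Rn j) Y n) : ∃ (W : T.C) (φ : W ⟶ (LI I).obj Y), Rq I v φ := by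
  obtain ⟨W, φ, h⟩ := rp_ex (Q := QQ I) ((vw (NN.obj Y)).el (po v))
  refine ⟨W, φ ≫ (th I).hom.app Y, ?_⟩
  rw [Rq, Category.assoc, Iso.hom_inv_id_app]
  exact (Category.comp_id φ).symm ▸ h

theorem Rq.uniq {φ' : W' ⟶ (LI I).obj Y} (h : Rq I v φ) (h' : Rq I v φ') :
    ∃ e : W ≅ W', φ = e.hom ≫ φ' := by
  obtain ⟨e, he⟩ := Rp.uniq h h'
  exact ⟨e, by rw [← cancel_mono ((th I).inv.app Y), he, Category.assoc]⟩

theorem Rq.cls {v' : Pm (Rn j') Y n'} (h : Rq I v φ)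
    (e : Quot.mk (PiRel Y) (.of v) = Quot.mk _ (.of v')) : Rq I v' φ :=
  haveI := qq_loc I
  rp_cls (X := NN.obj Y) (x := ⟨j, n, po v⟩) (y := ⟨j', n', po v'⟩) (congrArg (qe Y) e) h

theorem Rq.post (h : Rq I v φ) (g : Y ⟶ Y') {v' : Pm (Rn j) Y' n}
    (e : ∀ y, v'.fn y = g.app n (v.fn y)) : Rq I v' (φ ≫ (LI I).map g) := by
  have h1 := Rp.post h (NN.map g)
  have h2 : (φ ≫ (LI I).map g) ≫ (th I).inv.app Y' =
      (φ ≫ (th I).inv.app Y) ≫ (QQ I).map (NN.map g) := by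
    rw [Category.assoc, (th I).inv.naturality, Category.assoc]
    rfl
  have h3 : po v' = pm (P251CX.mo g) (po v) := Subtype.ext (ContinuousMap.ext e)
  rw [Rq, h2]
  exact ((congrArg (vw (NN.obj Y')).el h3).trans (el_pm (NN.map g) (po v))).symm ▸ h1

theorem Rq.mul (h : Rq I v φ) {D : Map (Rn j) (Rn j)} (hD : S.map D = m • 𝟙 _)
    {v' : Pm (Rn j) Y n} (e : ∀ y, v'.fn y = v.fn (D.toFun y)) : Rq I v' (m • φ) := by
  have h1 := Rp.mul h hD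
  have h3 : (vw (NN.obj Y)).el (po v') = lc (K := (euc j).s) (K' := (euc j).s) (toHom D) ≫
      (vw (NN.obj Y)).el (po v) := PQ.hom_ext' fun y => congrArg ((vw (NN.obj Y)).e n) (e y)
  rw [Rq, Preadditive.nsmul_comp, h3]
  exact h1

theorem Rq.null (h : Rq I v φ) (e : ∀ y, v.fn y = Y.bp n) : φ = 0 := by
  have h1 : Rq I v (0 • φ) := h.mul (D := ⟨fun _ => ∞, continuous_const, rfl⟩)
    ((map_const S _ _ (.sph j) (.sph j)).trans (zero_nsmul _).symm) fun y =>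
      (e y).trans (e ∞).symm
  obtain ⟨a, ha⟩ := h.uniq h1
  rw [ha, zero_nsmul, comp_zero]

theorem Rq.inj (h : Rq I v (0 : W ⟶ (LI I).obj Y)) : IsNull (Quot.mk (PiRel Y) (.of v)) := by
  have := qq_loc I
  let z : Pm (Rn j) Y n := ⟨fun _ => Y.bp n, continuous_const, rfl⟩
  rw [Rq, zero_comp] at h
  obtain ⟨k, hk⟩ := Rp.inj (v' := (vw (NN.obj Y)).el (po z)) h fun W ψ hψ => by
    have h1 : Rq I z (ψ ≫ (th I).hom.app Y) := by
      rw [Rq, Category.assoc, Iso.hom_inv_id_app]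
      exact (Category.comp_id ψ).symm ▸ hψ
    rw [← cancel_mono ((th I).hom.app Y), h1.null fun _ => rfl, zero_comp]
  exact ⟨j, n, z, fun _ => rfl, (qe Y).injective (cls_of_ht (X := NN.obj Y) hk).symm⟩

theorem rq_sur (k : ℤ) (φ : (𝟙_ T.C)⟦k⟧ ⟶ (LI I).obj Y) :
    ∃ (j n : ℕ) (v : Pm (Rn j) Y n), Rq I v φ := by
  have := qq_loc I
  obtain ⟨j, n, E, u, hu, ⟨a⟩⟩ := sph I k
  obtain ⟨j, n, v, hv⟩ := rp_sur (X := NN.obj Y) hu a (φ ≫ (th I).inv.app Y)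
  obtain ⟨v, rfl⟩ := (vw (NN.obj Y)).el.surjective v
  exact ⟨j, n, pn v, hv⟩

variable (I) in
/-- **Row G1a.** -/
theorem g1a : G1a I := by
  intro p Y Y' g h1 h2 k
  constructor
  · intro y
    obtain ⟨j, n, v, hv⟩ := rq_sur k y
    obtain ⟨m, x, y', hm, ⟨j1, n1, v1, v1', D, hD, e1, e2, e3⟩, j2, n2, u, u', e4, -, e6⟩ :=
      h1 (Quot.mk _ (.of v))
    obtain ⟨W, ψ, hψ⟩ := rq_ex (I := I) u
    obtain ⟨a, ha⟩ := (((hv.cls e2.symm).mul (map_Dg S hD) e1).cls (e3.trans e6.symm)).uniq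
      (hψ.post g e4)
    exact ⟨m, a.hom ≫ ψ, hm, (Category.assoc _ _ _).trans ha.symm⟩
  · intro x hx
    obtain ⟨j, n, u, hu⟩ := rq_sur k x
    let u' : Pm (Rn j) Y' n := ⟨fun y => g.app n (u.fn y), (g.ok n).1.comp u.cont,
      (congrArg (g.app n) u.based).trans (g.ok n).2.1⟩
    have h3 := hu.post g (v' := u') fun _ => rfl
    rw [hx] at h3
    obtain ⟨m, x', hm, ⟨j1, n1, v1, v1', D, hD, e1, e2, e3⟩, j2, n2, z, e4, e5⟩ :=
      h2 _ _ ⟨j, n, u, u', fun _ => rfl, rfl, rfl⟩ h3.inj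
    exact ⟨m, hm, (((hu.cls e2.symm).mul (map_Dg S hD) e1).cls (e3.trans e5.symm)).null e4⟩

end Vale.Agent.P241GG
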