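import Vale.Agent.P241GG.Loc
import Vale.Agent.P251CP.Pi

/-!
# P241G: morphisms of the localization which represent elements of orthogonal spectra
-/

open CategoryTheory MonoidalCategory Limits OnePoint

noncomputable section

namespace Vale.Agent.P241GG

open P251 P251.H P251.H.StabInput P251CM P251CA P251CA.CF P251CP
open P251.G (LC)
open P251CR (RM)
open P251CV (R)
open Sp0 (euc)

section

variable {E E' A : CF} {j n : ℕ}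

/-- the isomorphism of spaces -/
def sIso {a b : Sp0} (w : a ≅ b) : b.s ≅ a.s :=
  ⟨w.inv.hom, w.hom.hom, congrArg (·.hom) w.inv_hom_id, congrArg (·.hom) w.hom_inv_id⟩

theorem ap_comp {B : PQ} {a : Sp0} (u : B ⟶ E.obj a) (f : E ⟶ E') (g : E' ⟶ A) :
    u ≫ ap (f ≫ g) a = (u ≫ ap f a) ≫ ap g a := rfl

theorem cr_iso {B : PQ} {a : Sp0} {u : B ⟶ E.obj a} {u' : B ⟶ E'.obj a} (h : Cr u) (h' : Cr u') :
    ∃ e : E ≅ E', u ≫ ap e.hom a = u' := by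
  obtain ⟨f, hf⟩ := (h E').2 u'
  obtain ⟨g, hg⟩ := (h' E).2 u
  dsimp only at hf hg
  refine ⟨⟨f, g, (h E).1 ?_, (h' E').1 ?_⟩, hf⟩
  · exact ((ap_comp u f g).trans (congrArg (· ≫ ap g a) hf)).trans hg
  · exact ((ap_comp u' g f).trans (congrArg (· ≫ ap f a) hg)).trans hf

theorem sgk_comp (g : El E j n) (f : E ⟶ A) (k : ℕ) :
    sgk (g ≫ ap f _) k = sgk g k ≫ ap f _ := by
  induction k with
  | zero => rfl
  | succ k ih => exact (congrArg sg ih).trans (sg_comp _ f)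

theorem cr_up {u : El E j n} (h : Cr u) (k : ℕ) :
    ∃ v : El (up k E) (j + k) (n + k), Cr v ∧ v ≫ ap (tkM k E) _ = sgk u k := by
  obtain ⟨v, h1, h2⟩ := h.up k
  refine ⟨_, h1.tr (sIso (cnk j k)) (cnk n k), ?_⟩
  rw [sgk_eq, ← h2]
  exact congrArg (lc (cnk j k).inv.hom ≫ ·) (map_ap (f := tkM k E) v (cnk n k).hom)

theorem cr_gg {u : El E j n} (h : Cr u) : GG CF E := by
  obtain ⟨_, ⟨a, rfl⟩, ⟨p⟩⟩ := cf_gpow (euc j)
  obtain ⟨_, ⟨b, rfl⟩, ⟨w⟩⟩ := cf_gpow (euc n)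
  obtain ⟨c, K, hK, e⟩ := (cells_iff E).2 ⟨a, b, _, h.tr (sIso p) w⟩
  exact ⟨c, K, P251CL.IsSph.fc hK, e⟩

theorem cr_F (B : PQ) : Cr (Funit B) := fun X => (FEquiv B X).bijective

theorem cr_cell (j n : ℕ) : ∃ u : El (CF.rep (euc n) ⊗ jC.obj (euc j).s) j n, Cr u ∧
    ∀ d : (euc j).s ⟶ (euc j).s, u ≫ ap (CF.rep (euc n) ◁ jC.map d) _ = lc d ≫ u := by
  obtain ⟨v, h1, h2⟩ := (cr_F (PQ.ofLC (euc j).s)).rep (euc n)
  refine ⟨_, h1.act (ρ_ (euc n)), fun d => PQ.hom_ext' fun y => ?_⟩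
  refine (fn_act (CF.rep (euc n) ◁ jC.map d) (ρ_ (euc n)).hom (PQ.app v y)).trans ?_
  refine congrArg ((CF.rep (euc n) ⊗ jC.obj (euc j).s).act (ρ_ (euc n)).hom) ?_
  refine (congrArg (fn (CF.rep (euc n) ◁ jC.map d)) (h2 y)).trans ?_
  refine (whiskerLeft_tm _ (jC.map d) _ _).trans ?_
  exact (congrArg (tm (pr (𝟙 (euc n)))) (fn_jC_map d y pu)).trans (h2 _).symm

theorem cr_zero : ∃ u : El (jC.obj (euc 0).s) 0 0, Cr u :=
  ⟨_, (cr_F (PQ.ofLC (euc 0).s)).act (Sp0.toEuc (𝟙_ Sp0))⟩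

end

variable {T : Type 1} [Category.{0} T] (Q : RM R ⥤ T) {X Y : RM R} {j n : ℕ} {W W' : T}

/-- the morphism `φ` represents the element `v` -/
def Rp (v : El ((RM.q R).obj X) j n) (φ : W ⟶ Q.obj X) : Prop :=
  ∃ (E : CF) (u : El E j n) (x : E ⟶ (RM.q R).obj X) (e : W ≅ Q.obj ((RM.r R).obj E)),
    Cr u ∧ u ≫ ap x _ = v ∧ φ = e.hom ≫ kk R Q x

variable {Q} {v v' : El ((RM.q R).obj X) j n} {φ : W ⟶ Q.obj X} {φ' : W' ⟶ Q.obj X}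

theorem rp_of {E : CF} {u : El E j n} (h : Cr u) (x : E ⟶ (RM.q R).obj X) :
    Rp Q (u ≫ ap x _) (kk R Q x) := ⟨E, u, x, Iso.refl _, h, rfl, (Category.id_comp _).symm⟩

theorem rp_ex (v : El ((RM.q R).obj X) j n) : ∃ (W : T) (φ : W ⟶ Q.obj X), Rp Q v φ := by
  have h := cr_unit (PQ.ofLC (euc j).s) (euc n)
  obtain ⟨x, rfl⟩ := (h _).2 v
  exact ⟨_, _, rp_of h x⟩

theorem Rp.uniq (h : Rp Q v φ) (h' : Rp Q v φ') : ∃ e : W ≅ W', φ = e.hom ≫ φ' := by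
  obtain ⟨E, u, x, e, h1, h2, rfl⟩ := h
  obtain ⟨E', u', x', e', h1', h2', rfl⟩ := h'
  obtain ⟨a, ha⟩ := cr_iso h1 h1'
  obtain rfl : x = a.hom ≫ x' := (h1 _).1 (h2.trans (h2'.symm.trans
    ((ap_comp u a.hom x').trans (congrArg (· ≫ ap x' _) ha)).symm))
  refine ⟨e ≪≫ Q.mapIso ((RM.r R).mapIso a) ≪≫ e'.symm, ?_⟩
  rw [kk_pre]
  simp

theorem Rp.iso (h : Rp Q v φ) (a : W' ≅ W) : Rp Q v (a.hom ≫ φ) := by
  obtain ⟨E, u, x, e, h1, h2, rfl⟩ := h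
  exact ⟨E, u, x, a ≪≫ e, h1, h2, (Category.assoc _ _ _).symm⟩

theorem Rp.post (h : Rp Q v φ) (f : X ⟶ Y) :
    Rp Q (v ≫ ap ((RM.q R).map f) _) (φ ≫ Q.map f) := by
  obtain ⟨E, u, x, e, h1, rfl, rfl⟩ := h
  exact ⟨E, u, x ≫ (RM.q R).map f, e, h1, rfl, by rw [kk_post, Category.assoc]⟩

variable [Q.IsLocalization (WW (RM R))]

theorem Rp.ht (h : Rp Q v φ) (e : Ht v v') : Rp Q v' φ := by
  obtain ⟨E, u, x, a, h1, rfl, rfl⟩ := h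
  obtain ⟨x', rfl⟩ := (h1 _).2 v'
  exact ⟨E, u, x', a, h1, rfl, congrArg (a.hom ≫ ·) (kk_htpy R Q ((h1.mh x x').2 e))⟩

theorem Rp.up (h : Rp Q v φ) (k : ℕ) : Rp Q (sgk v k) φ := by
  obtain ⟨E, u, x, a, h1, rfl, rfl⟩ := h
  obtain ⟨u', h2, h3⟩ := cr_up h1 k
  have := isIso_tkr R Q k E
  refine ⟨_, u', tkM k E ≫ x, a ≪≫ (asIso (Q.map ((RM.r R).map (tkM k E)))).symm, h2, ?_, ?_⟩
  · rw [sgk_comp, ← h3]
    rfl
  · rw [kk_pre]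
    simp

theorem rp_sg : Rp Q (sg v) φ ↔ Rp Q v φ := by
  refine ⟨fun h => ?_, fun h => h.up 1⟩
  obtain ⟨W', φ', h'⟩ := rp_ex (Q := Q) v
  obtain ⟨e, rfl⟩ := h.uniq (h'.up 1)
  exact h'.iso e

theorem rp_sur {E : CF} {u : El E j n} (h : Cr u) (a : W ≅ Q.obj ((RM.r R).obj E))
    (φ : W ⟶ Q.obj X) : ∃ (j n : ℕ) (v : El ((RM.q R).obj X) j n), Rp Q v φ := by
  obtain ⟨k, x, hx⟩ := kk_rep R Q (cr_gg h) (a.inv ≫ φ)
  obtain ⟨u', h2, -⟩ := cr_up h k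
  have := isIso_tkr R Q k E
  refine ⟨_, _, _, _, u', x, a ≪≫ (asIso (Q.map ((RM.r R).map (tkM k E)))).symm, h2, rfl, ?_⟩
  rw [← hx]
  simp

theorem Rp.inj [HasZeroMorphisms T] (h : Rp Q v (0 : W ⟶ Q.obj X))
    (h' : ∀ (W : T) (φ : W ⟶ Q.obj X), Rp Q v' φ → φ = 0) :
    ∃ k, Ht (sgk v k) (sgk v' k) := by
  obtain ⟨E, u, x, a, h1, rfl, e⟩ := h
  obtain ⟨x', rfl⟩ := (h1 _).2 v'
  have e1 : kk R Q x = 0 := by rw [← cancel_epi a.hom, ← e, comp_zero]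
  obtain ⟨k, hk⟩ := kk_inj R Q (cr_gg h1) (e1.trans (h' _ _ (rp_of h1 x')).symm)
  obtain ⟨u', h2, h3⟩ := cr_up h1 k
  refine ⟨k, ?_⟩
  beta_reduce
  rw [sgk_comp, sgk_comp, ← h3]
  exact (h2.mh _ _).1 hk

/-- the view of an object of the model -/
def vw (X : RM R) : View X ((RM.q R).obj X) := vq X

theorem el_pm (f : X ⟶ Y) (g : P251C.Pm (St.Rn j) X n) :
    (vw Y).el (pm (X := X) (Y := Y) f g) = (vw X).el g ≫ ap ((RM.q R).map f) _ :=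
  PQ.hom_ext' fun _ => (P251CV.qE.map (X := X) (Y := Y) f n _).symm

theorem rp_cls {x y : Σ j n, P251C.Pm (St.Rn j) X n}
    (e : Quot.mk (P251C.PiRel X) x = Quot.mk _ y) (h : Rp Q ((vw X).el x.2.2) φ) :
    Rp Q ((vw X).el y.2.2) φ := by
  have h1 : ∀ (k : ℕ) (x : Σ j n, P251C.Pm (St.Rn j) X n),
      Rp Q ((vw X).el ((vw X).sys.σ^[k] x).2.2) φ ↔ Rp Q ((vw X).el x.2.2) φ := fun k x => by
    induction k with
    | zero => exact Iff.rfl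
    | succ k ih =>
      rw [Function.iterate_succ_apply']
      exact ((iff_of_eq (congrArg (Rp Q · φ) ((vw X).el.apply_symm_apply _))).trans rp_sg).trans ih
  obtain ⟨k, l, j, n, g, g', a, b, c⟩ := ((vw X).gen.eq x y).1 e
  rw [← h1 k, a] at h
  rw [← h1 l, b]
  exact h.ht (((vw X).ht_el g g').2 c)

theorem cls_of_ht {g g' : P251C.Pm (St.Rn j) X n} {k : ℕ}
    (h : Ht (sgk ((vw X).el g) k) (sgk ((vw X).el g') k)) :
    Quot.mk (P251C.PiRel X) ⟨j, n, g⟩ = Quot.mk _ ⟨j, n, g'⟩ := by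
  refine ((vw X).gen.eq _ _).2 ⟨k, k, ?_⟩
  have e := ((vw X).H_iff ((vw X).el.symm (sgk ((vw X).el g) k))
    ((vw X).el.symm (sgk ((vw X).el g') k))).2 (by
      rw [Equiv.apply_symm_apply, Equiv.apply_symm_apply]
      exact h)
  exact ((vw X).it_eq g k).symm ▸ ((vw X).it_eq g' k).symm ▸ e

end Vale.Agent.P241GG
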